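import Vale.Agent.P365.MathlibUsed

/-!
# P365-T2 / mobility: dyadic sums
-/

set_option linter.all false

namespace P365T2.Mob

open Finset

/-- dyadic numbers `R / 2^j` below `M` : sum at most `2 M` -/
theorem sum_dyad_le {R M : ℝ} (hR : 0 < R) (hM : 0 ≤ M) (s : Finset ℕ) :
    ∑ j ∈ s.filter (fun j => R / 2 ^ j ≤ M), R / 2 ^ j ≤ 2 * M := by
  classical
  by_cases hne : (s.filter (fun j : ℕ => R / 2 ^ j ≤ M)).Nonempty
  · obtain ⟨j0, hj0, hmin⟩ := exists_min_image (s.filter (fun j : ℕ => R / 2 ^ j ≤ M)) id hne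
    have hj0' : R / 2 ^ j0 ≤ M := (mem_filter.1 hj0).2
    obtain ⟨n, hn⟩ := (s.filter (fun j : ℕ => R / 2 ^ j ≤ M)).exists_nat_subset_range
    have hsub : (s.filter (fun j : ℕ => R / 2 ^ j ≤ M)) ⊆ (range n).map (addLeftEmbedding j0) := by
      intro j hj
      have h1 : j0 ≤ j := hmin j hj
      have h2 := mem_range.1 (hn hj)
      rw [mem_map]
      refine ⟨j - j0, mem_range.2 (by omega), ?_⟩
      simp only [addLeftEmbedding_apply]
      omega
    calc ∑ j ∈ s.filter (fun j : ℕ => R / 2 ^ j ≤ M), R / 2 ^ j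
        ≤ ∑ j ∈ (range n).map (addLeftEmbedding j0), R / 2 ^ j :=
          sum_le_sum_of_subset_of_nonneg hsub fun _ _ _ => by positivity
      _ = ∑ i ∈ range n, R / 2 ^ j0 * (1 / 2) ^ i := by
          rw [sum_map]
          refine sum_congr rfl fun i _ => ?_
          simp only [addLeftEmbedding_apply, pow_add]
          rw [one_div, inv_pow]
          field_simp
      _ = R / 2 ^ j0 * ∑ i ∈ range n, (1 / 2 : ℝ) ^ i := (mul_sum _ _ _).symm
      _ ≤ R / 2 ^ j0 * 2 := by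
          refine mul_le_mul_of_nonneg_left ?_ (by positivity)
          rw [geom_sum_eq (by norm_num)]
          have : (0 : ℝ) ≤ (1 / 2) ^ n := by positivity
          rw [div_le_iff_of_neg (by norm_num)]
          linarith
      _ ≤ 2 * M := by linarith
  · rw [not_nonempty_iff_eq_empty] at hne
    rw [hne, sum_empty]
    linarith

/-- dyadic numbers `R / 2^j` above `A` : sum of the reciprocals at most `2 / A` -/
theorem sum_dyad_inv_le {R A : ℝ} (hR : 0 < R) (hA : 0 < A) (s : Finset ℕ) :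
    ∑ j ∈ s.filter (fun j => A < R / 2 ^ j), 2 ^ j / R ≤ 2 / A := by
  classical
  by_cases hne : (s.filter (fun j : ℕ => A < R / 2 ^ j)).Nonempty
  · obtain ⟨j1, hj1, hmax⟩ := exists_max_image (s.filter (fun j : ℕ => A < R / 2 ^ j)) id hne
    have hj1' : A < R / 2 ^ j1 := (mem_filter.1 hj1).2
    have hsub : (s.filter (fun j : ℕ => A < R / 2 ^ j)) ⊆ range (j1 + 1) := by
      intro j hj
      have h1 : j ≤ j1 := hmax j hj
      exact mem_range.2 (by omega)
    calc ∑ j ∈ s.filter (fun j : ℕ => A < R / 2 ^ j), 2 ^ j / R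
        ≤ ∑ j ∈ range (j1 + 1), 2 ^ j / R :=
          sum_le_sum_of_subset_of_nonneg hsub fun _ _ _ => by positivity
      _ = (∑ j ∈ range (j1 + 1), (2 : ℝ) ^ j) / R := (sum_div _ _ _).symm
      _ ≤ (2 * 2 ^ j1) / R := by
          refine div_le_div_of_nonneg_right ?_ hR.le
          rw [geom_sum_eq (by norm_num), pow_succ]
          have : (0 : ℝ) ≤ 2 ^ j1 := by positivity
          norm_num
          linarith
      _ ≤ 2 / A := by
          rw [lt_div_iff₀ (by positivity)] at hj1'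
          rw [div_le_div_iff₀ hR hA]
          nlinarith
  · rw [not_nonempty_iff_eq_empty] at hne
    rw [hne, sum_empty]
    positivity

/-- number of dyadic numbers `R / 2^j` in `(M, A]` -/
theorem card_dyad_le {R M A : ℝ} (hR : 0 < R) (hM : 0 < M) (hMA : M ≤ A) (s : Finset ℕ) :
    ((s.filter (fun j => M < R / 2 ^ j ∧ R / 2 ^ j ≤ A)).card : ℝ) ≤
      1 + Real.log (A / M) / Real.log 2 := by
  classical
  have hl2 : 0 < Real.log 2 := Real.log_pos (by norm_num)
  have hA : 0 < A := hM.trans_le hMA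
  by_cases hne : (s.filter (fun j : ℕ => M < R / 2 ^ j ∧ R / 2 ^ j ≤ A)).Nonempty
  · obtain ⟨j0, hj0, hmin⟩ := exists_min_image
      (s.filter (fun j : ℕ => M < R / 2 ^ j ∧ R / 2 ^ j ≤ A)) id hne
    obtain ⟨j1, hj1, hmax⟩ := exists_max_image
      (s.filter (fun j : ℕ => M < R / 2 ^ j ∧ R / 2 ^ j ≤ A)) id hne
    have a0 := (mem_filter.1 hj0).2
    have a1 := (mem_filter.1 hj1).2
    have h01 : j0 ≤ j1 := hmin j1 hj1
    have hsub : (s.filter (fun j : ℕ => M < R / 2 ^ j ∧ R / 2 ^ j ≤ A)) ⊆ Icc j0 j1 := by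
      intro j hj
      exact mem_Icc.2 ⟨hmin j hj, hmax j hj⟩
    have hcard : ((s.filter (fun j : ℕ => M < R / 2 ^ j ∧ R / 2 ^ j ≤ A)).card : ℝ) ≤
        1 + ((j1 : ℝ) - j0) := by
      have h1 := card_le_card hsub
      rw [Nat.card_Icc] at h1
      have h2 : ((s.filter (fun j : ℕ => M < R / 2 ^ j ∧ R / 2 ^ j ≤ A)).card : ℝ) ≤
          ((j1 + 1 - j0 : ℕ) : ℝ) := by exact_mod_cast h1
      rw [Nat.cast_sub (by omega)] at h2
      push_cast at h2
      linarith
    refine hcard.trans (add_le_add le_rfl ?_)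
    rw [le_div_iff₀ hl2]
    -- `2 ^ (j1 - j0) ≤ A / M`
    have h3 : (2 : ℝ) ^ (j1 - j0) ≤ A / M := by
      rw [le_div_iff₀ hM]
      have e1 : (2 : ℝ) ^ j1 = 2 ^ j0 * 2 ^ (j1 - j0) := by
        rw [← pow_add]
        congr 1
        omega
      have b0 : R ≤ A * 2 ^ j0 := by
        have := a0.2
        rwa [div_le_iff₀ (by positivity)] at this
      have b1 : M * 2 ^ j1 < R := by
        have := a1.1
        rwa [lt_div_iff₀ (by positivity)] at this
      rw [e1] at b1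
      have h2p : (0 : ℝ) < 2 ^ j0 := by positivity
      have : 2 ^ (j1 - j0) * M * 2 ^ j0 ≤ A * 2 ^ j0 := by nlinarith
      exact le_of_mul_le_mul_right this h2p
    have h4 := Real.log_le_log (by positivity) h3
    rw [Real.log_pow, Nat.cast_sub h01] at h4
    exact h4
  · rw [not_nonempty_iff_eq_empty] at hne
    rw [hne, card_empty]
    have : 0 ≤ Real.log (A / M) := Real.log_nonneg (by rwa [one_le_div hM])
    push_cast
    positivity

/-- **abstract form of the mobility lemma**: `x j = |μ(f^{2^j})|²`, `R / 2^j` = radius -/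
theorem sum_mob {R M V x0 : ℝ} (hR : 0 < R) (hM : 0 < M) (hMV : M ^ 2 ≤ V) (hx0 : 0 ≤ x0)
    (s : Finset ℕ) (d : ℕ → ℝ) (B C : ℝ) (hB : 0 ≤ B) (hC : 0 ≤ C)
    (h1 : ∀ j ∈ s, d j ≤ B * (R / 2 ^ j) ^ 2)
    (h2 : ∀ j ∈ s, d j ≤ C * (x0 * M + M ^ 2))
    (h3 : ∀ j ∈ s, d j ≤ C * (x0 * (V * (2 ^ j / R)) + (V * (2 ^ j / R)) ^ 2)) :
    ∑ j ∈ s, d j ≤ 2 * B * M ^ 2 + C * (x0 * M + M ^ 2) * (1 + Real.log (V / M ^ 2) / Real.log 2) +
      C * (2 * x0 * M + 2 * M ^ 2) := by
  classical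
  have hV : 0 < V := (pow_pos hM 2).trans_le hMV
  have hA : 0 < V / M := by positivity
  have hMA : M ≤ V / M := by
    rw [le_div_iff₀ hM]
    nlinarith
  -- three pieces
  have hsplit : ∑ j ∈ s, d j ≤
      ∑ j ∈ s.filter (fun j => R / 2 ^ j ≤ M), B * (R / 2 ^ j) ^ 2 +
      ∑ j ∈ s.filter (fun j => M < R / 2 ^ j ∧ R / 2 ^ j ≤ V / M), C * (x0 * M + M ^ 2) +
      ∑ j ∈ s.filter (fun j => V / M < R / 2 ^ j),
        C * (x0 * (V * (2 ^ j / R)) + (V * (2 ^ j / R)) ^ 2) := by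
    simp only [sum_filter]
    rw [← sum_add_distrib, ← sum_add_distrib]
    refine sum_le_sum fun j hj => ?_
    by_cases c1 : R / 2 ^ j ≤ M
    · have c2 : ¬ (M < R / 2 ^ j ∧ R / 2 ^ j ≤ V / M) := fun h => by linarith [h.1]
      have c3 : ¬ (V / M < R / 2 ^ j) := fun h => by linarith
      rw [if_pos c1, if_neg c2, if_neg c3]
      linarith [h1 j hj]
    · rw [not_le] at c1
      rw [if_neg (not_le.2 c1)]
      by_cases c2 : R / 2 ^ j ≤ V / M
      · rw [if_pos ⟨c1, c2⟩, if_neg (not_lt.2 c2)]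
        linarith [h2 j hj]
      · rw [if_neg (fun h => c2 h.2), if_pos (not_le.1 c2)]
        linarith [h3 j hj]
  refine hsplit.trans ?_
  have p1 : ∑ j ∈ s.filter (fun j => R / 2 ^ j ≤ M), B * (R / 2 ^ j) ^ 2 ≤ 2 * B * M ^ 2 := by
    calc ∑ j ∈ s.filter (fun j => R / 2 ^ j ≤ M), B * (R / 2 ^ j) ^ 2
        ≤ ∑ j ∈ s.filter (fun j => R / 2 ^ j ≤ M), B * M * (R / 2 ^ j) := by
          refine sum_le_sum fun j hj => ?_
          have h5 := (mem_filter.1 hj).2
          have h6 : 0 ≤ R / 2 ^ j := by positivity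
          nlinarith [mul_nonneg hB h6]
      _ = B * M * ∑ j ∈ s.filter (fun j => R / 2 ^ j ≤ M), R / 2 ^ j := (mul_sum _ _ _).symm
      _ ≤ B * M * (2 * M) := mul_le_mul_of_nonneg_left (sum_dyad_le hR hM.le s) (by positivity)
      _ = 2 * B * M ^ 2 := by ring
  have p2 : ∑ j ∈ s.filter (fun j => M < R / 2 ^ j ∧ R / 2 ^ j ≤ V / M), C * (x0 * M + M ^ 2) ≤
      C * (x0 * M + M ^ 2) * (1 + Real.log (V / M ^ 2) / Real.log 2) := by
    rw [sum_const, nsmul_eq_mul, mul_comm]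
    have h5 := card_dyad_le hR hM hMA s
    have h6 : V / M / M = V / M ^ 2 := by
      field_simp
    rw [h6] at h5
    exact mul_le_mul_of_nonneg_left h5 (by positivity)
  have p3 : ∑ j ∈ s.filter (fun j => V / M < R / 2 ^ j),
      C * (x0 * (V * (2 ^ j / R)) + (V * (2 ^ j / R)) ^ 2) ≤ C * (2 * x0 * M + 2 * M ^ 2) := by
    calc ∑ j ∈ s.filter (fun j => V / M < R / 2 ^ j),
          C * (x0 * (V * (2 ^ j / R)) + (V * (2 ^ j / R)) ^ 2)
        ≤ ∑ j ∈ s.filter (fun j => V / M < R / 2 ^ j), C * (x0 + M) * V * (2 ^ j / R) := by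
          refine sum_le_sum fun j hj => ?_
          have h5 := (mem_filter.1 hj).2
          have h6 : V * (2 ^ j / R) ≤ M := by
            rw [div_lt_div_iff₀ hM (by positivity)] at h5
            rw [mul_div_assoc', div_le_iff₀ hR]
            linarith
          have h7 : 0 ≤ V * (2 ^ j / R) := by positivity
          have h8 : (V * (2 ^ j / R)) ^ 2 ≤ M * (V * (2 ^ j / R)) := by nlinarith
          calc C * (x0 * (V * (2 ^ j / R)) + (V * (2 ^ j / R)) ^ 2)
              ≤ C * (x0 * (V * (2 ^ j / R)) + M * (V * (2 ^ j / R))) := by gcongr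
            _ = _ := by ring
      _ = C * (x0 + M) * V * ∑ j ∈ s.filter (fun j => V / M < R / 2 ^ j), 2 ^ j / R :=
          (mul_sum _ _ _).symm
      _ ≤ C * (x0 + M) * V * (2 / (V / M)) :=
          mul_le_mul_of_nonneg_left (sum_dyad_inv_le hR hA s) (by positivity)
      _ = C * (2 * x0 * M + 2 * M ^ 2) := by
          field_simp
  linarith

end P365T2.Mob
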