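import Vale.Agent.P365.Torus.Char
import Vale.Agent.P365.T2.H938.Dyad

/-!
# P365-T2: the mobility lemma, trigonometric form

`phk N k i` : the four characters of frequency `k` divided by the frequency (`k = 1` : `phi N`).
-/

set_option linter.all false

namespace P365T2.Mob

open Finset P365L Complex
open scoped ComplexConjugate

/-- the four characters of frequency `k`, divided by the frequency -/
noncomputable def phk (N k : ℕ) (i : Fin 4) (x : Tor N) : ℝ :=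
  ![Real.cos (k * ang x.1), Real.sin (k * ang x.1), Real.cos (k * ang x.2),
    Real.sin (k * ang x.2)] i / (k * kN N)

theorem phk_one (N : ℕ) : phk N 1 = phi N := by
  funext i x
  unfold phk phi
  simp only [Nat.cast_one, one_mul]

/-- `∑ i, (phk i x - phk i y)²` -/
noncomputable def dk (N k : ℕ) (x y : Tor N) : ℝ := ∑ i, (phk N k i x - phk N k i y) ^ 2

/-- `|μ_v(f^k)|²` for the weights `q` -/
noncomputable def mu2 (N k : ℕ) [NeZero N] (q : Tor N → ℝ) (v : Tor N) : ℝ :=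
  ∑ i, (∑ a, q a * (phk N k i a - phk N k i v)) ^ 2

variable {N : ℕ} [NeZero N]

/-! ### one coordinate -/

/-- the character increment of frequency `k` -/
noncomputable def ex (k : ℕ) (t : ℝ) : ℂ := (exp ((k * t : ℝ) * I) - 1) / k

theorem norm_exp_sub_one_le (x : ℝ) : ‖exp ((x : ℂ) * I) - 1‖ ≤ |x| := by
  have := Real.norm_exp_I_mul_ofReal_sub_one_le (x := x)
  rwa [mul_comm, Real.norm_eq_abs] at this

theorem norm_exp_sub_one_le_two (x : ℝ) : ‖exp ((x : ℂ) * I) - 1‖ ≤ 2 := by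
  calc ‖exp ((x : ℂ) * I) - 1‖ ≤ ‖exp ((x : ℂ) * I)‖ + ‖(1 : ℂ)‖ := norm_sub_le _ _
    _ = 2 := by
        rw [norm_exp_ofReal_mul_I, norm_one]
        norm_num

theorem norm_exp_sub_lin_le (x : ℝ) : ‖exp ((x : ℂ) * I) - 1 - (x : ℂ) * I‖ ≤ 2 * x ^ 2 := by
  have hn : ‖(x : ℂ) * I‖ = |x| := by
    rw [norm_mul, Complex.norm_I, mul_one, Complex.norm_real, Real.norm_eq_abs]
  by_cases h : |x| ≤ 1
  · have := Complex.norm_exp_sub_one_sub_id_le (x := (x : ℂ) * I) (by rw [hn]; exact h)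
    rw [hn, sq_abs] at this
    nlinarith [sq_nonneg x]
  · rw [not_le] at h
    calc ‖exp ((x : ℂ) * I) - 1 - (x : ℂ) * I‖
        ≤ ‖exp ((x : ℂ) * I) - 1‖ + ‖(x : ℂ) * I‖ := norm_sub_le _ _
      _ ≤ |x| + |x| := add_le_add (norm_exp_sub_one_le x) hn.le
      _ ≤ 2 * x ^ 2 := by
          rw [← sq_abs]
          nlinarith

theorem norm_ex_le {k : ℕ} (hk : 1 ≤ k) (t : ℝ) : ‖ex k t‖ ≤ 2 / k := by
  unfold ex
  rw [norm_div, Complex.norm_natCast]
  exact div_le_div_of_nonneg_right (norm_exp_sub_one_le_two _) (Nat.cast_nonneg _)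

theorem norm_ex_le_abs {k : ℕ} (hk : 1 ≤ k) (t : ℝ) : ‖ex k t‖ ≤ |t| := by
  have hk0 : (0 : ℝ) < k := by exact_mod_cast hk
  unfold ex
  rw [norm_div, Complex.norm_natCast, div_le_iff₀ hk0]
  refine (norm_exp_sub_one_le _).trans ?_
  rw [abs_mul, abs_of_pos hk0, mul_comm]

theorem norm_ex_sub_lin {k : ℕ} (hk : 1 ≤ k) (t : ℝ) : ‖ex k t - (t : ℂ) * I‖ ≤ 2 * k * t ^ 2 := by
  have hk0 : (0 : ℝ) < k := by exact_mod_cast hk
  have hkc : (k : ℂ) ≠ 0 := by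
    exact_mod_cast hk0.ne'
  have e : ex k t - (t : ℂ) * I =
      (exp (((k * t : ℝ) : ℂ) * I) - 1 - ((k * t : ℝ) : ℂ) * I) / k := by
    unfold ex
    push_cast
    field_simp
  rw [e, norm_div, Complex.norm_natCast, div_le_iff₀ hk0]
  refine (norm_exp_sub_lin_le _).trans (le_of_eq ?_)
  ring

theorem norm_ex_sub_one {k : ℕ} (hk : 1 ≤ k) (t : ℝ) : ‖ex k t - ex 1 t‖ ≤ 4 * k * t ^ 2 := by
  have hk1 : (1 : ℝ) ≤ k := by exact_mod_cast hk
  calc ‖ex k t - ex 1 t‖ = ‖(ex k t - (t : ℂ) * I) - (ex 1 t - (t : ℂ) * I)‖ := by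
        congr 1
        ring
    _ ≤ ‖ex k t - (t : ℂ) * I‖ + ‖ex 1 t - (t : ℂ) * I‖ := norm_sub_le _ _
    _ ≤ 2 * k * t ^ 2 + 2 * (1 : ℕ) * t ^ 2 := add_le_add (norm_ex_sub_lin hk t)
        (norm_ex_sub_lin le_rfl t)
    _ ≤ 4 * k * t ^ 2 := by
        push_cast
        nlinarith [sq_nonneg t, mul_le_mul_of_nonneg_right hk1 (sq_nonneg t)]

theorem norm_ex_sub_one' {k : ℕ} (hk : 1 ≤ k) (t : ℝ) : ‖ex k t - ex 1 t‖ ≤ 2 * |t| := by
  calc ‖ex k t - ex 1 t‖ ≤ ‖ex k t‖ + ‖ex 1 t‖ := norm_sub_le _ _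
    _ ≤ |t| + |t| := add_le_add (norm_ex_le_abs hk t) (norm_ex_le_abs le_rfl t)
    _ = 2 * |t| := by ring

/-- `E_k` for one coordinate -/
noncomputable def EE (k : ℕ) (q : Tor N → ℝ) (t : Tor N → ℝ) : ℂ :=
  (∑ a, (q a : ℂ) * ex k (t a)) / (kN N : ℂ)

theorem sq_add_sq_EE {k : ℕ} (hk : 1 ≤ k) (q : Tor N → ℝ) (pr : Tor N → ZMod N) (b : ZMod N) :
    (∑ a, q a * (Real.cos (k * ang (pr a)) / (k * kN N) - Real.cos (k * ang b) / (k * kN N))) ^ 2 +
      (∑ a, q a * (Real.sin (k * ang (pr a)) / (k * kN N) -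
        Real.sin (k * ang b) / (k * kN N))) ^ 2 =
      ‖EE k q fun a => ang (pr a - b)‖ ^ 2 := by
  have hk0 : (0 : ℝ) < k := by exact_mod_cast hk
  have hkc : (k : ℂ) ≠ 0 := by
    exact_mod_cast hk0.ne'
  have hK : (kN N : ℂ) ≠ 0 := by
    exact_mod_cast (kN_pos (N := N)).ne'
  obtain ⟨X, hX⟩ : ∃ X, X = ∑ a, q a * (Real.cos (k * ang (pr a)) / (k * kN N) -
    Real.cos (k * ang b) / (k * kN N)) := ⟨_, rfl⟩
  obtain ⟨Y, hY⟩ : ∃ Y, Y = ∑ a, q a * (Real.sin (k * ang (pr a)) / (k * kN N) -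
    Real.sin (k * ang b) / (k * kN N)) := ⟨_, rfl⟩
  rw [← hX, ← hY]
  have hrot : (X : ℂ) + Y * I = exp (((k * ang b : ℝ) : ℂ) * I) *
      EE k q fun a => ang (pr a - b) := by
    have hterm : ∀ a, exp (((k * ang b : ℝ) : ℂ) * I) * ((q a : ℂ) * ex k (ang (pr a - b))) =
        (kN N : ℂ) * ((q a * (Real.cos (k * ang (pr a)) / (k * kN N) -
          Real.cos (k * ang b) / (k * kN N)) : ℝ) +
          (q a * (Real.sin (k * ang (pr a)) / (k * kN N) -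
            Real.sin (k * ang b) / (k * kN N)) : ℝ) * I) := by
      intro a
      obtain ⟨m, hm⟩ := ang_sub (pr a) b
      have h1 : exp (((k * ang b : ℝ) : ℂ) * I) * exp (((k * ang (pr a - b) : ℝ) : ℂ) * I) =
          exp (((k * ang (pr a) : ℝ) : ℂ) * I) := by
        rw [← exp_add]
        have h2 : ((k * ang (pr a) : ℝ) : ℂ) * I = (((k * ang b : ℝ) : ℂ) * I +
            ((k * ang (pr a - b) : ℝ) : ℂ) * I) + ((k * m : ℤ) : ℂ) * (2 * Real.pi * I) := by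
          have h3 : ang (pr a) = ang b + ang (pr a - b) + m * (2 * Real.pi) := by linarith
          rw [h3]
          push_cast
          ring
        rw [h2, exp_periodic.int_mul]
      unfold ex
      rw [show exp (((k * ang b : ℝ) : ℂ) * I) * ((q a : ℂ) *
        ((exp (((k * ang (pr a - b) : ℝ) : ℂ) * I) - 1) / k)) =
        (q a : ℂ) * ((exp (((k * ang b : ℝ) : ℂ) * I) * exp (((k * ang (pr a - b) : ℝ) : ℂ) * I) -
          exp (((k * ang b : ℝ) : ℂ) * I)) / k) by ring, h1]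
      rw [exp_mul_I, exp_mul_I, ← ofReal_cos, ← ofReal_sin, ← ofReal_cos, ← ofReal_sin]
      push_cast
      field_simp
      ring
    have hsum : (X : ℂ) + Y * I = ∑ a, ((q a * (Real.cos (k * ang (pr a)) / (k * kN N) -
          Real.cos (k * ang b) / (k * kN N)) : ℝ) +
          (q a * (Real.sin (k * ang (pr a)) / (k * kN N) -
            Real.sin (k * ang b) / (k * kN N)) : ℝ) * I) := by
      rw [hX, hY, sum_add_distrib, ← sum_mul]
      push_cast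
      rfl
    rw [hsum]
    unfold EE
    rw [mul_div_assoc', mul_sum, eq_div_iff hK, sum_mul]
    refine sum_congr rfl fun a _ => ?_
    rw [hterm a]
    ring
  have h4 : ‖(X : ℂ) + Y * I‖ ^ 2 = X ^ 2 + Y ^ 2 := by
    rw [← normSq_eq_norm_sq, normSq_add_mul_I]
  rw [← h4, hrot, norm_mul, norm_exp_ofReal_mul_I, one_mul]

/-- **`|μ(f^k)|²` through the two complex increments** -/
theorem mu2_eq {k : ℕ} (hk : 1 ≤ k) (q : Tor N → ℝ) (v : Tor N) :
    mu2 N k q v = ‖EE k q fun a => ang (a.1 - v.1)‖ ^ 2 + ‖EE k q fun a => ang (a.2 - v.2)‖ ^ 2 := by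
  unfold mu2
  rw [Fin.sum_univ_four, ← sq_add_sq_EE hk q (fun a => a.1) v.1,
    ← sq_add_sq_EE hk q (fun a => a.2) v.2]
  simp only [phk, Matrix.cons_val_zero, Matrix.cons_val_one, Matrix.cons_val]
  ring

theorem abs_ang_eq (z : ZMod N) : |ang z| = kN N * (z.valMinAbs.natAbs : ℝ) := by
  unfold ang
  rw [abs_mul, abs_of_pos kN_pos, ← Int.cast_abs, Int.abs_eq_natAbs, Int.cast_natCast]

theorem abs_ang_fst_le (x : Tor N) : |ang x.1| ≤ kN N * nrm x := by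
  rw [abs_ang_eq]
  have : x.1.valMinAbs.natAbs ≤ nrm x := le_max_left _ _
  exact mul_le_mul_of_nonneg_left (by exact_mod_cast this) kN_pos.le

theorem abs_ang_snd_le (x : Tor N) : |ang x.2| ≤ kN N * nrm x := by
  rw [abs_ang_eq]
  have : x.2.valMinAbs.natAbs ≤ nrm x := le_max_right _ _
  exact mul_le_mul_of_nonneg_left (by exact_mod_cast this) kN_pos.le

omit [NeZero N] in
theorem sq_mean_le {ι : Type*} [Fintype ι] {q : ι → ℝ} (hq : ∀ a, 0 ≤ q a)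
    (hq1 : ∑ a, q a = 1) (n : ι → ℝ) : (∑ a, q a * n a) ^ 2 ≤ ∑ a, q a * n a ^ 2 := by
  have h4 := sum_mul_sq_le_sq_mul_sq (univ : Finset ι)
    (fun a => Real.sqrt (q a)) (fun a => Real.sqrt (q a) * n a)
  have h5 : ∀ a : ι, Real.sqrt (q a) * (Real.sqrt (q a) * n a) = q a * n a := by
    intro a
    rw [← mul_assoc, Real.mul_self_sqrt (hq a)]
  have h6 : ∀ a : ι, Real.sqrt (q a) ^ 2 = q a := fun a => Real.sq_sqrt (hq a)
  have h7 : ∀ a : ι, (Real.sqrt (q a) * n a) ^ 2 = q a * n a ^ 2 := by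
    intro a
    rw [mul_pow, h6]
  simp only [h5, h6, h7, hq1, one_mul] at h4
  exact h4

section est

variable {q : Tor N → ℝ} {t n : Tor N → ℝ}

theorem norm_EE_le (hq : ∀ a, 0 ≤ q a) (hq1 : ∑ a, q a = 1) {k : ℕ} (hk : 1 ≤ k) :
    ‖EE k q t‖ ≤ 2 / (k * kN N) := by
  have hK := kN_pos (N := N)
  have hk0 : (0 : ℝ) < k := by exact_mod_cast hk
  unfold EE
  rw [norm_div, Complex.norm_real, Real.norm_of_nonneg hK.le, div_le_div_iff₀ hK (by positivity)]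
  have h1 : ‖∑ a, (q a : ℂ) * ex k (t a)‖ ≤ 2 / k := by
    calc ‖∑ a, (q a : ℂ) * ex k (t a)‖ ≤ ∑ a, ‖(q a : ℂ) * ex k (t a)‖ := norm_sum_le _ _
      _ ≤ ∑ a, q a * (2 / k) := sum_le_sum fun a _ => by
          rw [norm_mul, Complex.norm_real, Real.norm_of_nonneg (hq a)]
          exact mul_le_mul_of_nonneg_left (norm_ex_le hk _) (hq a)
      _ = 2 / k := by rw [← sum_mul, hq1, one_mul]
  calc ‖∑ a, (q a : ℂ) * ex k (t a)‖ * (k * kN N) ≤ 2 / k * (k * kN N) :=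
        mul_le_mul_of_nonneg_right h1 (by positivity)
    _ = 2 * kN N := by
        field_simp

theorem norm_EE_sub_le (hq : ∀ a, 0 ≤ q a) (ht : ∀ a, |t a| ≤ kN N * n a) {k : ℕ}
    (hk : 1 ≤ k) : ‖EE k q t - EE 1 q t‖ ≤ 4 * (k * kN N) * ∑ a, q a * n a ^ 2 := by
  have hK := kN_pos (N := N)
  have hk0 : (0 : ℝ) < k := by exact_mod_cast hk
  unfold EE
  rw [← sub_div, ← sum_sub_distrib, norm_div, Complex.norm_real, Real.norm_of_nonneg hK.le,
    div_le_iff₀ hK]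
  calc ‖∑ a, ((q a : ℂ) * ex k (t a) - (q a : ℂ) * ex 1 (t a))‖
      ≤ ∑ a, ‖(q a : ℂ) * ex k (t a) - (q a : ℂ) * ex 1 (t a)‖ := norm_sum_le _ _
    _ ≤ ∑ a, q a * (4 * k * (kN N * n a) ^ 2) := sum_le_sum fun a _ => by
        rw [← mul_sub, norm_mul, Complex.norm_real, Real.norm_of_nonneg (hq a)]
        refine mul_le_mul_of_nonneg_left ((norm_ex_sub_one hk _).trans ?_) (hq a)
        refine mul_le_mul_of_nonneg_left ?_ (by positivity)
        rw [← sq_abs]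
        exact pow_le_pow_left₀ (abs_nonneg _) (ht a) 2
    _ = 4 * (k * kN N) * (∑ a, q a * n a ^ 2) * kN N := by
        rw [mul_sum, sum_mul]
        exact sum_congr rfl fun a _ => by ring

theorem norm_EE_sub_le' (hq : ∀ a, 0 ≤ q a) (ht : ∀ a, |t a| ≤ kN N * n a) {k : ℕ}
    (hk : 1 ≤ k) : ‖EE k q t - EE 1 q t‖ ≤ 2 * ∑ a, q a * n a := by
  have hK := kN_pos (N := N)
  unfold EE
  rw [← sub_div, ← sum_sub_distrib, norm_div, Complex.norm_real, Real.norm_of_nonneg hK.le,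
    div_le_iff₀ hK]
  calc ‖∑ a, ((q a : ℂ) * ex k (t a) - (q a : ℂ) * ex 1 (t a))‖
      ≤ ∑ a, ‖(q a : ℂ) * ex k (t a) - (q a : ℂ) * ex 1 (t a)‖ := norm_sum_le _ _
    _ ≤ ∑ a, q a * (2 * (kN N * n a)) := sum_le_sum fun a _ => by
        rw [← mul_sub, norm_mul, Complex.norm_real, Real.norm_of_nonneg (hq a)]
        exact mul_le_mul_of_nonneg_left ((norm_ex_sub_one' hk _).trans
          (mul_le_mul_of_nonneg_left (ht a) (by norm_num))) (hq a)
    _ = 2 * (∑ a, q a * n a) * kN N := by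
        rw [mul_sum, sum_mul]
        exact sum_congr rfl fun a _ => by ring

/-- one coordinate of the mobility lemma -/
theorem mob_one (hq : ∀ a, 0 ≤ q a) (hq1 : ∑ a, q a = 1) (hn : ∀ a, 0 ≤ n a)
    (ht : ∀ a, |t a| ≤ kN N * n a) (hM : 0 < ∑ a, q a * n a) (s : Finset ℕ) :
    ∑ j ∈ s, (‖EE (2 ^ j) q t‖ ^ 2 - ‖EE 1 q t‖ ^ 2) ≤
      8 * (∑ a, q a * n a) ^ 2 + 16 * (‖EE 1 q t‖ * (∑ a, q a * n a) + (∑ a, q a * n a) ^ 2) *
        (1 + Real.log ((∑ a, q a * n a ^ 2) / (∑ a, q a * n a) ^ 2) / Real.log 2) +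
      16 * (2 * ‖EE 1 q t‖ * (∑ a, q a * n a) + 2 * (∑ a, q a * n a) ^ 2) := by
  have hK := kN_pos (N := N)
  obtain ⟨M, hMd⟩ : ∃ M, M = ∑ a, q a * n a := ⟨_, rfl⟩
  obtain ⟨V, hVd⟩ : ∃ V, V = ∑ a, q a * n a ^ 2 := ⟨_, rfl⟩
  rw [← hMd] at hM ⊢
  rw [← hVd]
  have hMV : M ^ 2 ≤ V := by
    rw [hMd, hVd]
    exact sq_mean_le hq hq1 n
  have hV0 : 0 ≤ V := (sq_nonneg M).trans hMV
  have key := sum_mob (R := 1 / kN N) (M := M) (V := V) (x0 := ‖EE 1 q t‖) (by positivity) hM hMV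
    (norm_nonneg _) s (fun j => ‖EE (2 ^ j) q t‖ ^ 2 - ‖EE 1 q t‖ ^ 2) 4 16 (by norm_num)
    (by norm_num) ?_ ?_ ?_
  · refine key.trans (le_of_eq ?_)
    ring
  · intro j _
    have h1 := norm_EE_le (t := t) hq hq1 (k := 2 ^ j) Nat.one_le_two_pow
    have h2 : ‖EE (2 ^ j) q t‖ ^ 2 ≤ (2 / (((2 ^ j : ℕ) : ℝ) * kN N)) ^ 2 :=
      pow_le_pow_left₀ (norm_nonneg _) h1 2
    have h3 : (2 / (((2 ^ j : ℕ) : ℝ) * kN N)) ^ 2 = 4 * (1 / kN N / 2 ^ j) ^ 2 := by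
      push_cast
      field_simp
      norm_num
    rw [h3] at h2
    have := sq_nonneg ‖EE 1 q t‖
    linarith
  · intro j _
    have h1 := norm_EE_sub_le' (n := n) hq ht (k := 2 ^ j) Nat.one_le_two_pow
    rw [← hMd] at h1
    have h2 : ‖EE (2 ^ j) q t‖ ≤ ‖EE 1 q t‖ + 2 * M := by
      have := norm_sub_norm_le (EE (2 ^ j) q t) (EE 1 q t)
      linarith
    have h3 : ‖EE (2 ^ j) q t‖ ^ 2 ≤ (‖EE 1 q t‖ + 2 * M) ^ 2 :=
      pow_le_pow_left₀ (norm_nonneg _) h2 2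
    nlinarith [norm_nonneg (EE 1 q t), mul_nonneg (norm_nonneg (EE 1 q t)) hM.le, sq_nonneg M]
  · intro j _
    have h1 := norm_EE_sub_le (n := n) hq ht (k := 2 ^ j) Nat.one_le_two_pow
    rw [← hVd] at h1
    obtain ⟨y, hy⟩ : ∃ y, y = V * (2 ^ j / (1 / kN N)) := ⟨_, rfl⟩
    have hy0 : 0 ≤ y := by
      rw [hy]
      positivity
    have hy' : 4 * (((2 ^ j : ℕ) : ℝ) * kN N) * V = 4 * y := by
      rw [hy]
      push_cast
      field_simp
    rw [hy'] at h1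
    rw [← hy]
    have h2 : ‖EE (2 ^ j) q t‖ ≤ ‖EE 1 q t‖ + 4 * y := by
      have := norm_sub_norm_le (EE (2 ^ j) q t) (EE 1 q t)
      linarith
    have h3 : ‖EE (2 ^ j) q t‖ ^ 2 ≤ (‖EE 1 q t‖ + 4 * y) ^ 2 :=
      pow_le_pow_left₀ (norm_nonneg _) h2 2
    nlinarith [norm_nonneg (EE 1 q t), mul_nonneg (norm_nonneg (EE 1 q t)) hy0, sq_nonneg y]

end est

/-! ### the mobility lemma -/

/-- first moment of the jump -/
noncomputable def m1 (q : Tor N → ℝ) (v : Tor N) : ℝ := ∑ a, q a * nrm (a - v)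

/-- second moment of the jump -/
noncomputable def m2 (q : Tor N → ℝ) (v : Tor N) : ℝ := ∑ a, q a * (nrm (a - v) : ℝ) ^ 2

section main

variable {q : Tor N → ℝ}

theorem m1_nonneg (hq : ∀ a, 0 ≤ q a) (v : Tor N) : 0 ≤ m1 q v :=
  sum_nonneg fun a _ => mul_nonneg (hq a) (Nat.cast_nonneg _)

theorem m2_nonneg (hq : ∀ a, 0 ≤ q a) (v : Tor N) : 0 ≤ m2 q v :=
  sum_nonneg fun a _ => mul_nonneg (hq a) (sq_nonneg _)

theorem m1_sq_le (hq : ∀ a, 0 ≤ q a) (hq1 : ∑ a, q a = 1) (v : Tor N) :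
    m1 q v ^ 2 ≤ m2 q v := sq_mean_le hq hq1 _

/-- if the first moment vanishes there is no jump -/
theorem mu2_eq_zero (hq : ∀ a, 0 ≤ q a) {v : Tor N} (h : m1 q v = 0) (k : ℕ) :
    mu2 N k q v = 0 := by
  unfold mu2
  refine sum_eq_zero fun i _ => ?_
  rw [sum_eq_zero, zero_pow two_ne_zero]
  intro a _
  have h1 := (sum_eq_zero_iff_of_nonneg fun a _ =>
    mul_nonneg (hq a) (Nat.cast_nonneg (nrm (a - v)))).1 h a (mem_univ a)
  rcases mul_eq_zero.1 h1 with h2 | h2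
  · rw [h2, zero_mul]
  · have h3 : a = v := by
      have h4 : nrm (a - v) = 0 := by exact_mod_cast h2
      exact sub_eq_zero.1 (nrm_eq_zero.1 h4)
    rw [h3, sub_self, mul_zero]

theorem mu2_nonneg (k : ℕ) (v : Tor N) : 0 ≤ mu2 N k q v := sum_nonneg fun i _ => sq_nonneg _

/-- **THE MOBILITY LEMMA.** `φ(p) = p (1 + log 1/p)`, `p = m1² / m2` : the right side is
`144 m2 φ(p) + 256 |μ(f^1)| m2^{1/2}`. -/
theorem mob (hq : ∀ a, 0 ≤ q a) (hq1 : ∑ a, q a = 1) (v : Tor N) (s : Finset ℕ) :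
    ∑ j ∈ s, (mu2 N (2 ^ j) q v - mu2 N 1 q v) ≤
      144 * (m1 q v ^ 2 * (1 + Real.log (m2 q v / m1 q v ^ 2))) +
        256 * (Real.sqrt (mu2 N 1 q v) * Real.sqrt (m2 q v)) := by
  rcases (m1_nonneg hq v).eq_or_lt with h0 | hM
  · have h1 : ∀ j ∈ s, mu2 N (2 ^ j) q v - mu2 N 1 q v = 0 := fun j _ => by
      rw [mu2_eq_zero hq h0.symm, mu2_eq_zero hq h0.symm, sub_zero]
    rw [sum_congr rfl h1, sum_const_zero, ← h0]
    have := mul_nonneg (Real.sqrt_nonneg (mu2 N 1 q v)) (Real.sqrt_nonneg (m2 q v))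
    simp only [ne_eq, OfNat.ofNat_ne_zero, not_false_eq_true, zero_pow, zero_mul, mul_zero, zero_add]
    linarith
  obtain ⟨M, hMd⟩ : ∃ M, M = m1 q v := ⟨_, rfl⟩
  obtain ⟨V, hVd⟩ : ∃ V, V = m2 q v := ⟨_, rfl⟩
  have hMV : M ^ 2 ≤ V := by
    rw [hMd, hVd]
    exact m1_sq_le hq hq1 v
  rw [← hMd] at hM ⊢
  rw [← hVd]
  have hV : 0 < V := (pow_pos hM 2).trans_le hMV
  obtain ⟨x1, hx1⟩ : ∃ x1, x1 = ‖EE 1 q fun a => ang (a.1 - v.1)‖ := ⟨_, rfl⟩
  obtain ⟨x2, hx2⟩ : ∃ x2, x2 = ‖EE 1 q fun a => ang (a.2 - v.2)‖ := ⟨_, rfl⟩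
  have hx10 : 0 ≤ x1 := by
    rw [hx1]
    exact norm_nonneg _
  have hx20 : 0 ≤ x2 := by
    rw [hx2]
    exact norm_nonneg _
  obtain ⟨L, hL⟩ : ∃ L, L = Real.log (V / M ^ 2) := ⟨_, rfl⟩
  have hL0 : 0 ≤ L := by
    rw [hL]
    exact Real.log_nonneg (by rwa [one_le_div (by positivity)])
  have k1 := mob_one (t := fun a => ang (a.1 - v.1)) (n := fun a => (nrm (a - v) : ℝ)) hq hq1
    (fun a => Nat.cast_nonneg _) (fun a => by
      have := abs_ang_fst_le (a - v)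
      rwa [Prod.fst_sub] at this) (by
      have : ∑ a, q a * (nrm (a - v) : ℝ) = M := by rw [hMd, m1]
      rw [this]
      exact hM) s
  have k2 := mob_one (t := fun a => ang (a.2 - v.2)) (n := fun a => (nrm (a - v) : ℝ)) hq hq1
    (fun a => Nat.cast_nonneg _) (fun a => by
      have := abs_ang_snd_le (a - v)
      rwa [Prod.snd_sub] at this) (by
      have : ∑ a, q a * (nrm (a - v) : ℝ) = M := by rw [hMd, m1]
      rw [this]
      exact hM) s
  have eM : ∑ a, q a * (nrm (a - v) : ℝ) = M := by rw [hMd, m1]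
  have eV : ∑ a, q a * (nrm (a - v) : ℝ) ^ 2 = V := by rw [hVd, m2]
  rw [eM, eV, ← hx1, ← hL] at k1
  rw [eM, eV, ← hx2, ← hL] at k2
  have hsum : ∑ j ∈ s, (mu2 N (2 ^ j) q v - mu2 N 1 q v) =
      ∑ j ∈ s, (‖EE (2 ^ j) q fun a => ang (a.1 - v.1)‖ ^ 2 - x1 ^ 2) +
      ∑ j ∈ s, (‖EE (2 ^ j) q fun a => ang (a.2 - v.2)‖ ^ 2 - x2 ^ 2) := by
    rw [← sum_add_distrib]
    refine sum_congr rfl fun j _ => ?_
    rw [mu2_eq Nat.one_le_two_pow, mu2_eq le_rfl, hx1, hx2]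
    ring
  obtain ⟨X, hX⟩ : ∃ X, X = Real.sqrt (mu2 N 1 q v) := ⟨_, rfl⟩
  have hX2 : X ^ 2 = x1 ^ 2 + x2 ^ 2 := by
    rw [hX, Real.sq_sqrt (mu2_nonneg _ _), mu2_eq le_rfl, hx1, hx2]
  have hX0 : 0 ≤ X := by
    rw [hX]
    exact Real.sqrt_nonneg _
  have hx1X : x1 ≤ X := le_of_sq_le_sq (by nlinarith [sq_nonneg x2]) hX0
  have hx2X : x2 ≤ X := le_of_sq_le_sq (by nlinarith [sq_nonneg x1]) hX0
  rw [hsum, ← hX, ← hL]
  -- `1 + L / log 2 ≤ 2 (1 + L)`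
  have hl2 : (1 / 2 : ℝ) ≤ Real.log 2 := by
    have := Real.one_sub_inv_le_log_of_pos (show (0 : ℝ) < 2 by norm_num)
    linarith
  have hLl : L / Real.log 2 ≤ 2 * L := by
    rw [div_le_iff₀ (by linarith)]
    nlinarith
  -- `M (1 + L) ≤ 2 √V`
  obtain ⟨S, hS⟩ : ∃ S, S = Real.sqrt V := ⟨_, rfl⟩
  have hS2 : S ^ 2 = V := by rw [hS, Real.sq_sqrt hV.le]
  have hS0 : 0 < S := by
    rw [hS]
    exact Real.sqrt_pos.2 hV
  have hML : M * (1 + L) ≤ 2 * S := by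
    have h1 : L = 2 * Real.log (S / M) := by
      rw [hL, ← hS2, ← div_pow, Real.log_pow]
      norm_num
    have h2 := Real.log_le_sub_one_of_pos (show 0 < S / M by positivity)
    have h3 : M * (S / M) = S := by
      field_simp
    nlinarith
  have hMS : 0 ≤ M := hM.le
  rw [← hS]
  have a1 : 16 * (x1 * M + M ^ 2) * (1 + L / Real.log 2) ≤ 16 * (X * M + M ^ 2) * (2 * (1 + L)) := by
    refine mul_le_mul (by nlinarith) (by linarith) (by positivity) (by positivity)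
  have a2 : 16 * (x2 * M + M ^ 2) * (1 + L / Real.log 2) ≤ 16 * (X * M + M ^ 2) * (2 * (1 + L)) := by
    refine mul_le_mul (by nlinarith) (by linarith) (by positivity) (by positivity)
  have a3 : X * (M * (1 + L)) ≤ X * (2 * S) := mul_le_mul_of_nonneg_left hML hX0
  have a4 : 0 ≤ X * M * L := by positivity
  have a5 : 0 ≤ M ^ 2 * L := by positivity
  have a6 : x1 * M ≤ X * M := mul_le_mul_of_nonneg_right hx1X hMS
  have a7 : x2 * M ≤ X * M := mul_le_mul_of_nonneg_right hx2X hMS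
  linarith

/-- Paley–Zygmund: the jump is at least half of its mean with probability `≥ p / 4` -/
theorem mobile_prob (hq : ∀ a, 0 ≤ q a) (hq1 : ∑ a, q a = 1) (v : Tor N) :
    m1 q v ^ 2 ≤ 4 * m2 q v *
      ∑ a ∈ univ.filter (fun a => m1 q v / 2 ≤ (nrm (a - v) : ℝ)), q a := by
  classical
  obtain ⟨M, hM⟩ : ∃ M, M = m1 q v := ⟨_, rfl⟩
  rw [← hM]
  have h0 : 0 ≤ M := by
    rw [hM]
    exact m1_nonneg hq v
  -- mean over the far part
  have h1 : M / 2 ≤ ∑ a ∈ univ.filter (fun a => M / 2 ≤ (nrm (a - v) : ℝ)), q a * nrm (a - v) := by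
    have h2 : M = ∑ a ∈ univ.filter (fun a => M / 2 ≤ (nrm (a - v) : ℝ)), q a * nrm (a - v) +
        ∑ a ∈ univ.filter (fun a => ¬ M / 2 ≤ (nrm (a - v) : ℝ)), q a * nrm (a - v) := by
      rw [sum_filter_add_sum_filter_not, hM, m1]
    have h3 : ∑ a ∈ univ.filter (fun a => ¬ M / 2 ≤ (nrm (a - v) : ℝ)), q a * nrm (a - v) ≤
        M / 2 := by
      calc ∑ a ∈ univ.filter (fun a => ¬ M / 2 ≤ (nrm (a - v) : ℝ)), q a * nrm (a - v)
          ≤ ∑ a ∈ univ.filter (fun a => ¬ M / 2 ≤ (nrm (a - v) : ℝ)), q a * (M / 2) :=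
            sum_le_sum fun a ha => mul_le_mul_of_nonneg_left
              (not_le.1 (mem_filter.1 ha).2).le (hq a)
        _ ≤ ∑ a, q a * (M / 2) := sum_le_sum_of_subset_of_nonneg (filter_subset _ _)
            fun a _ _ => mul_nonneg (hq a) (by positivity)
        _ = M / 2 := by rw [← sum_mul, hq1, one_mul]
    linarith
  have h4 := sum_mul_sq_le_sq_mul_sq (univ.filter (fun a => M / 2 ≤ (nrm (a - v) : ℝ)))
    (fun a => Real.sqrt (q a)) (fun a => Real.sqrt (q a) * nrm (a - v))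
  have h5 : ∀ a : Tor N, Real.sqrt (q a) * (Real.sqrt (q a) * nrm (a - v)) = q a * nrm (a - v) := by
    intro a
    rw [← mul_assoc, Real.mul_self_sqrt (hq a)]
  have h6 : ∀ a : Tor N, Real.sqrt (q a) ^ 2 = q a := fun a => Real.sq_sqrt (hq a)
  have h7 : ∀ a : Tor N, (Real.sqrt (q a) * nrm (a - v)) ^ 2 = q a * (nrm (a - v) : ℝ) ^ 2 := by
    intro a
    rw [mul_pow, h6]
  simp only [h5, h6, h7] at h4
  have h8 : ∑ a ∈ univ.filter (fun a => M / 2 ≤ (nrm (a - v) : ℝ)), q a * (nrm (a - v) : ℝ) ^ 2 ≤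
      m2 q v := sum_le_sum_of_subset_of_nonneg (filter_subset _ _)
        fun a _ _ => mul_nonneg (hq a) (sq_nonneg _)
  have h9 : 0 ≤ ∑ a ∈ univ.filter (fun a => M / 2 ≤ (nrm (a - v) : ℝ)), q a :=
    sum_nonneg fun a _ => hq a
  have h10 : (M / 2) ^ 2 ≤ (∑ a ∈ univ.filter (fun a => M / 2 ≤ (nrm (a - v) : ℝ)),
      q a * nrm (a - v)) ^ 2 := pow_le_pow_left₀ (by positivity) h1 2
  nlinarith [mul_le_mul_of_nonneg_left h8 h9]

/-- part of the second moment at distances at most `2 m2 / m1` -/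
theorem mobile_near (hq : ∀ a, 0 ≤ q a) (hq1 : ∑ a, q a = 1) (v : Tor N) :
    m1 q v ^ 2 ≤ 4 * ∑ a ∈ univ.filter (fun a => (nrm (a - v) : ℝ) * m1 q v ≤ 2 * m2 q v),
      q a * (nrm (a - v) : ℝ) ^ 2 := by
  classical
  obtain ⟨M, hM⟩ : ∃ M, M = m1 q v := ⟨_, rfl⟩
  rw [← hM]
  have h0 : 0 ≤ M := by
    rw [hM]
    exact m1_nonneg hq v
  rcases h0.eq_or_lt with h00 | hM0
  · rw [← h00]
    have : 0 ≤ ∑ a ∈ univ.filter (fun a => (nrm (a - v) : ℝ) * 0 ≤ 2 * m2 q v),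
      q a * (nrm (a - v) : ℝ) ^ 2 := sum_nonneg fun a _ => mul_nonneg (hq a) (sq_nonneg _)
    linarith
  have hMV := m1_sq_le hq hq1 v
  rw [← hM] at hMV
  have hV : 0 < m2 q v := (pow_pos hM0 2).trans_le hMV
  have h1 : M / 2 ≤ ∑ a ∈ univ.filter (fun a => (nrm (a - v) : ℝ) * M ≤ 2 * m2 q v),
      q a * nrm (a - v) := by
    have h2 : M = ∑ a ∈ univ.filter (fun a => (nrm (a - v) : ℝ) * M ≤ 2 * m2 q v),
        q a * nrm (a - v) +
        ∑ a ∈ univ.filter (fun a => ¬ (nrm (a - v) : ℝ) * M ≤ 2 * m2 q v), q a * nrm (a - v) := by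
      rw [sum_filter_add_sum_filter_not, hM, m1]
    have h3 : ∑ a ∈ univ.filter (fun a => ¬ (nrm (a - v) : ℝ) * M ≤ 2 * m2 q v),
        q a * nrm (a - v) ≤ M / 2 := by
      calc ∑ a ∈ univ.filter (fun a => ¬ (nrm (a - v) : ℝ) * M ≤ 2 * m2 q v), q a * nrm (a - v)
          ≤ ∑ a ∈ univ.filter (fun a => ¬ (nrm (a - v) : ℝ) * M ≤ 2 * m2 q v),
            q a * (nrm (a - v) : ℝ) ^ 2 * (M / (2 * m2 q v)) :=
            sum_le_sum fun a ha => by
              have h4 := not_le.1 (mem_filter.1 ha).2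
              have h5 : (1 : ℝ) ≤ nrm (a - v) * (M / (2 * m2 q v)) := by
                rw [mul_div_assoc', one_le_div (by positivity)]
                exact h4.le
              calc q a * (nrm (a - v) : ℝ) = q a * nrm (a - v) * 1 := by ring
                _ ≤ q a * nrm (a - v) * (nrm (a - v) * (M / (2 * m2 q v))) :=
                    mul_le_mul_of_nonneg_left h5 (mul_nonneg (hq a) (Nat.cast_nonneg _))
                _ = _ := by ring
        _ ≤ ∑ a, q a * (nrm (a - v) : ℝ) ^ 2 * (M / (2 * m2 q v)) :=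
            sum_le_sum_of_subset_of_nonneg (filter_subset _ _)
            fun a _ _ => mul_nonneg (mul_nonneg (hq a) (sq_nonneg _)) (by positivity)
        _ = m2 q v * (M / (2 * m2 q v)) := by rw [← sum_mul, m2]
        _ = M / 2 := by
            field_simp
    linarith
  have h4 := sum_mul_sq_le_sq_mul_sq
    (univ.filter (fun a => (nrm (a - v) : ℝ) * M ≤ 2 * m2 q v))
    (fun a => Real.sqrt (q a)) (fun a => Real.sqrt (q a) * nrm (a - v))
  have h5 : ∀ a : Tor N, Real.sqrt (q a) * (Real.sqrt (q a) * nrm (a - v)) = q a * nrm (a - v) := by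
    intro a
    rw [← mul_assoc, Real.mul_self_sqrt (hq a)]
  have h6 : ∀ a : Tor N, Real.sqrt (q a) ^ 2 = q a := fun a => Real.sq_sqrt (hq a)
  have h7 : ∀ a : Tor N, (Real.sqrt (q a) * nrm (a - v)) ^ 2 = q a * (nrm (a - v) : ℝ) ^ 2 := by
    intro a
    rw [mul_pow, h6]
  simp only [h5, h6, h7] at h4
  have h8 : ∑ a ∈ univ.filter (fun a => (nrm (a - v) : ℝ) * M ≤ 2 * m2 q v), q a ≤ 1 := by
    rw [← hq1]
    exact sum_le_sum_of_subset_of_nonneg (filter_subset _ _) fun a _ _ => hq a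
  have h9 : 0 ≤ ∑ a ∈ univ.filter (fun a => (nrm (a - v) : ℝ) * M ≤ 2 * m2 q v),
      q a * (nrm (a - v) : ℝ) ^ 2 := sum_nonneg fun a _ => mul_nonneg (hq a) (sq_nonneg _)
  have h10 : (M / 2) ^ 2 ≤ (∑ a ∈ univ.filter (fun a => (nrm (a - v) : ℝ) * M ≤ 2 * m2 q v),
      q a * nrm (a - v)) ^ 2 := pow_le_pow_left₀ (by positivity) h1 2
  nlinarith [mul_le_mul_of_nonneg_right h8 h9]

end main

end P365T2.Mob
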